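import Vale.Agent.P144Z.A3.Main

/-!
# The Gram bound for Gaussian convolution
-/

namespace Vale.Agent.P144Z

open Finset Matrix

set_option linter.unusedSectionVars false

namespace A4

variable {S : Type} [Fintype S] [DecidableEq S]

theorem alt {C : Matrix S S ℝ} (hC : Cᵀ = -C) (v : S → ℝ) : Matrix.toBilin' C v v = 0 := by
  rw [Matrix.toBilin'_apply']
  have h : v ⬝ᵥ C *ᵥ v = -(v ⬝ᵥ C *ᵥ v) := by
    conv_lhs => rw [dotProduct_mulVec, dotProduct_comm, ← mulVec_transpose, hC, neg_mulVec,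
      dotProduct_neg]
  linarith

theorem gauss_eq {C : Matrix S S ℝ} (hC : Cᵀ = -C) (F : Gr S) :
    gauss C F = CAR.gauss (Matrix.toBilin' C) (alt hC) F := by
  have key : ∀ (B B' : LinearMap.BilinForm ℝ (S → ℝ))
      (p : B.toQuadraticMap = (0 : QuadraticForm ℝ (S → ℝ)) - 0)
      (p' : B'.toQuadraticMap = (0 : QuadraticForm ℝ (S → ℝ)) - 0), B = B' →
      CliffordAlgebra.changeForm p F = CliffordAlgebra.changeForm p' F := by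
    intro B B' p p' e
    subst e
    rfl
  refine key _ _ _ _ ?_
  unfold covB
  have e : (-(1 / 2) : ℝ) • (C - Cᵀ) = -C := by
    rw [hC, sub_neg_eq_add, ← two_smul ℝ C, smul_smul]
    norm_num
  rw [e]
  exact map_neg (Matrix.toBilin' (R₁ := ℝ) (n := S)) C

open scoped MatrixOrder in
theorem exists_sqrt {Q : Matrix S S ℝ} (hQ : Q.PosSemidef) : ∃ B : Matrix S S ℝ, Q = Bᵀ * B := by
  obtain ⟨B, hB⟩ := CStarAlgebra.nonneg_iff_eq_star_mul_self.mp hQ.nonneg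
  exact ⟨B, hB⟩

theorem exists_factor {C Q : Matrix S S ℝ} (h : ∀ w, Q *ᵥ w = 0 → C *ᵥ w = 0) :
    ∃ N : Matrix S S ℝ, C = N * Q := by
  have hk : LinearMap.ker (Matrix.toLin' Q) ≤ LinearMap.ker (Matrix.toLin' C) := fun w hw => h w hw
  obtain ⟨g, hg⟩ := LinearMap.exists_extend
    (((LinearMap.ker (Matrix.toLin' Q)).liftQ (Matrix.toLin' C) hk).comp
      (Matrix.toLin' Q).quotKerEquivRange.symm.toLinearMap)
  refine ⟨LinearMap.toMatrix' g, Matrix.toLin'.injective (LinearMap.ext fun w => ?_)⟩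
  rw [Matrix.toLin'_mul, Matrix.toLin'_toMatrix', LinearMap.comp_apply]
  have h1 := LinearMap.congr_fun hg ⟨Matrix.toLin' Q w, LinearMap.mem_range_self _ w⟩
  rw [LinearMap.comp_apply, LinearMap.comp_apply, LinearEquiv.coe_coe,
    LinearMap.quotKerEquivRange_symm_apply_image, Submodule.mkQ_apply, Submodule.liftQ_apply] at h1
  exact h1.symm

/-- Gram vectors -/
theorem exists_gram {C Q : Matrix S S ℝ} (hQ : Q.PosSemidef)
    (hCQ : ∀ δ δ', (δ ⬝ᵥ C *ᵥ δ') ^ 2 ≤ (δ ⬝ᵥ Q *ᵥ δ) * (δ' ⬝ᵥ Q *ᵥ δ')) :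
    ∃ B M : Matrix S S ℝ, (∀ v w, v ⬝ᵥ C *ᵥ w = (M *ᵥ v) ⬝ᵥ (B *ᵥ w)) ∧
      (∀ v, (B *ᵥ v) ⬝ᵥ (B *ᵥ v) = v ⬝ᵥ Q *ᵥ v) ∧ ∀ v, (M *ᵥ v) ⬝ᵥ (M *ᵥ v) ≤ v ⬝ᵥ Q *ᵥ v := by
  obtain ⟨B, hB⟩ := exists_sqrt hQ
  have hBB : ∀ v w, (B *ᵥ v) ⬝ᵥ (B *ᵥ w) = v ⬝ᵥ Q *ᵥ w := by
    intro v w
    rw [hB, ← mulVec_mulVec, dotProduct_mulVec v, vecMul_transpose]
  obtain ⟨N, hN⟩ := exists_factor (C := C) (Q := Q) fun w hw => by
    have h1 := hCQ (C *ᵥ w) w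
    rw [hw, dotProduct_zero, mul_zero] at h1
    exact dotProduct_self_eq_zero.1 (pow_eq_zero_iff two_ne_zero |>.1
      (le_antisymm h1 (sq_nonneg _)))
  have hM : ∀ v w, v ⬝ᵥ C *ᵥ w = ((B * Nᵀ) *ᵥ v) ⬝ᵥ (B *ᵥ w) := by
    intro v w
    rw [← mulVec_mulVec, hBB, hN, ← mulVec_mulVec, dotProduct_mulVec v, mulVec_transpose]
  refine ⟨B, B * Nᵀ, hM, fun v => hBB v v, fun v => ?_⟩
  have h1 := hCQ v (Nᵀ *ᵥ v)
  rw [hM, ← hBB (Nᵀ *ᵥ v), mulVec_mulVec] at h1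
  have h2 : 0 ≤ ((B * Nᵀ) *ᵥ v) ⬝ᵥ ((B * Nᵀ) *ᵥ v) :=
    Finset.sum_nonneg fun i _ => mul_self_nonneg _
  have h3 : 0 ≤ v ⬝ᵥ Q *ᵥ v := by
    rw [← hBB]
    exact Finset.sum_nonneg fun i _ => mul_self_nonneg _
  rcases h2.eq_or_lt with h4 | h4
  · rw [← h4]
    exact h3
  · rw [sq] at h1
    exact le_of_mul_le_mul_right h1 h4

/-- a real matrix as a map to complex vectors -/
noncomputable def cx (B : Matrix S S ℝ) : (S → ℝ) →ₗ[ℝ] S → ℂ :=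
  LinearMap.pi fun i => (Algebra.linearMap ℝ ℂ).comp ((LinearMap.proj i).comp (Matrix.toLin' B))

theorem cx_apply (B : Matrix S S ℝ) (v : S → ℝ) (i : S) : cx B v i = ((B *ᵥ v) i : ℝ) := rfl

theorem l2_cx (B : Matrix S S ℝ) (v : S → ℝ) : CAR.l2 (cx B v) = √((B *ᵥ v) ⬝ᵥ (B *ᵥ v)) := by
  unfold CAR.l2
  refine congrArg Real.sqrt (Finset.sum_congr rfl fun i _ => ?_)
  rw [cx_apply, Complex.norm_real, Real.norm_eq_abs, sq_abs, sq]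

/-- The Gram bound for a single field. -/
theorem exists_rep_gauss {C Q : Matrix S S ℝ} (hC : Cᵀ = -C) (hQ : Q.PosSemidef)
    (hCQ : ∀ δ δ', (δ ⬝ᵥ C *ᵥ δ') ^ 2 ≤ (δ ⬝ᵥ Q *ᵥ δ) * (δ' ⬝ᵥ Q *ᵥ δ')) (r : Rep S) :
    ∃ r' : Rep S, (∀ δ, opn (r'.Ψ δ) ≤ opn (r.Ψ δ) + 2 * √(δ ⬝ᵥ Q *ᵥ δ)) ∧
      ∀ F, opn (r.ev (gauss C F)) ≤ opn (r'.ev F) := by
  obtain ⟨B, M, h1, h2, h3⟩ := exists_gram hQ hCQ
  obtain ⟨Ψ, h4, h5⟩ := A3.exists_ext_gauss (Matrix.toBilin' C) (alt hC) (cx B) (cx M)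
    (fun v w => by
      rw [Matrix.toBilin'_apply', h1, Complex.coe_algebraMap, dotProduct, Complex.ofReal_sum]
      exact Finset.sum_congr rfl fun i _ => Complex.ofReal_mul _ _) (A3.toFld r)
  refine ⟨A3.ofFld Ψ, fun δ => (h4 δ).trans (add_le_add le_rfl ?_), fun F => ?_⟩
  · rw [l2_cx, l2_cx, h2, two_mul]
    exact add_le_add le_rfl (Real.sqrt_le_sqrt (h3 δ))
  · rw [gauss_eq hC]
    exact h5 F

theorem loc_induction {T : Set S} (M : Submodule ℝ (Gr S)) (h1 : (1 : Gr S) ∈ M)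
    (hm : ∀ s ∈ T, ∀ x ∈ M, gen s * x ∈ M) {F : Gr S} (hF : F ∈ loc T) : F ∈ M := by
  have key : ∀ y ∈ M, F * y ∈ M := by
    induction hF using Algebra.adjoin_induction with
    | mem x hx =>
      obtain ⟨s, hs, rfl⟩ := hx
      exact hm s hs
    | algebraMap r =>
      intro y hy
      rw [← Algebra.smul_def]
      exact M.smul_mem r hy
    | add x y _ _ hx hy =>
      intro z hz
      rw [add_mul]
      exact M.add_mem (hx z hz) (hy z hz)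
    | mul x y _ _ hx hy =>
      intro z hz
      rw [mul_assoc]
      exact hx _ (hy z hz)
  have h2 := key 1 h1
  rwa [mul_one] at h2

theorem gen_mem {T : Set S} {s : S} (hs : s ∈ T) : gen s ∈ loc T :=
  Algebra.subset_adjoin ⟨s, hs, rfl⟩

theorem del_loc (d : Module.Dual ℝ (S → ℝ)) {T : Set S} {F : Gr S} (hF : F ∈ loc T) :
    CliffordAlgebra.contractLeft d F ∈ loc T := by
  refine (loc_induction ((loc T).toSubmodule ⊓
    (loc T).toSubmodule.comap (CliffordAlgebra.contractLeft d)) ⟨(loc T).one_mem, ?_⟩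
    (fun s hs x hx => ⟨(loc T).mul_mem (gen_mem hs) hx.1, ?_⟩) hF).2
  · show CliffordAlgebra.contractLeft d (1 : Gr S) ∈ loc T
    rw [CliffordAlgebra.contractLeft_one]
    exact (loc T).zero_mem
  · show CliffordAlgebra.contractLeft d (CliffordAlgebra.ι _ (Pi.single s 1) * x) ∈ loc T
    rw [CliffordAlgebra.contractLeft_ι_mul]
    exact (loc T).sub_mem ((loc T).smul_mem hx.1 _) ((loc T).mul_mem (gen_mem hs) hx.2)

theorem gauss_loc {C : Matrix S S ℝ} (hC : Cᵀ = -C) {T : Set S} {F : Gr S} (hF : F ∈ loc T) :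
    gauss C F ∈ loc T := by
  rw [gauss_eq hC]
  refine loc_induction ((loc T).toSubmodule.comap (CAR.gauss (Matrix.toBilin' C) (alt hC)))
    ?_ (fun s hs x hx => ?_) hF
  · show CAR.gauss (Matrix.toBilin' C) (alt hC) 1 ∈ loc T
    rw [CAR.gauss_one]
    exact (loc T).one_mem
  · show CAR.gauss (Matrix.toBilin' C) (alt hC) (ExteriorAlgebra.ι ℝ (Pi.single s 1) * x) ∈ loc T
    rw [CAR.gauss_ι_mul]
    exact (loc T).add_mem ((loc T).mul_mem (gen_mem hs) hx) (del_loc _ hx)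

end A4

section A4
variable {S : Type} [Fintype S] [DecidableEq S] {𝒞 𝒞' : Set ((S → ℝ) × ℝ)} {T : Set S}

/-- The Gram bound for Gaussian convolution. -/
theorem nrm_gauss (h : Adm 𝒞 T) (h' : Adm 𝒞' T) {C Q : Matrix S S ℝ} (hC : Cᵀ = -C)
    (hQ : Q.PosSemidef) (hCQ : ∀ δ δ', (δ ⬝ᵥ C *ᵥ δ') ^ 2 ≤ (δ ⬝ᵥ Q *ᵥ δ) * (δ' ⬝ᵥ Q *ᵥ δ'))
    (hc : ∀ p ∈ 𝒞, ∃ c', (p.1, c') ∈ 𝒞' ∧ c' + 2 * √(p.1 ⬝ᵥ Q *ᵥ p.1) ≤ p.2)
    {F : Gr S} (hF : F ∈ loc T) : nrm 𝒞' T (gauss C F) ≤ nrm 𝒞 T F := by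
  refine nrm_le h' (A4.gauss_loc hC hF) fun r hr => ?_
  obtain ⟨r', h1, h2⟩ := A4.exists_rep_gauss hC hQ hCQ r
  refine (h2 F).trans (le_nrm h hF r' fun p hp => ?_)
  obtain ⟨c', hc', h3⟩ := hc p hp
  exact (h1 _).trans ((add_le_add (hr (p.1, c') hc') le_rfl).trans h3)
end A4

end Vale.Agent.P144Z
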